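import Mathlib
import Vale.Agent.P078.Defs
import Vale.Agent.P078.Semi.Defs
import Vale.Agent.P078.Semi.Main
import Vale.Agent.P078.Semi.Examples
import Vale.Agent.P078.Gen.Spec
import Vale.Agent.P078.Gen.SpecBridge
import Vale.Agent.P078.Gen.SingPart
import Vale.Agent.P078.Gen.Split
import Vale.Agent.P078.Gen.ApproxSpec
import Vale.Agent.P078.Gen.Approximation
import Vale.Agent.P078.Sharp.Final
import Vale.Agent.P078.Sing.Spec
import Vale.Agent.P078.Sing.Main
import Vale.Agent.P078.Sing.WalkFinish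

/-!
# So-paving with `O(ε⁻²)` pieces for singular MASAs and for semifinite algebras, and a reduction
-/

namespace Vale.Agent.Results.P078.General

open Vale.Agent.P078

universe u

lemma two_le_mul_ceil {ε : ℝ} (hε : 0 < ε) : 2 ≤ ε * (⌈2 / ε⌉₊ : ℕ) := by
  have h := Nat.le_ceil (2 / ε)
  rw [div_le_iff₀ hε] at h
  linarith

/-- So-paving with `C / ε²` pieces for every singular MASA of every von Neumann algebra and for
every MASA of every algebra with a semifinite trace; with `⌈2/ε⌉` pieces for every MASA without central normal functionals in any algebra; and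
in every algebra so-paving of all MASAs follows from that of MASAs with a faithful central normal
functional; and so-paving with `C / ε²` pieces for MASAs whose algebra is approximated,
in the square summable norm of a faithful central family, by semifinite algebras containing them. -/
theorem result :
    (∃ C : ℝ, ∀ ε : ℝ, 0 < ε → ε ≤ 1 → ∃ r : ℕ, (r : ℝ) ≤ C / ε ^ 2 ∧
      ∀ (H : Type u) [NormedAddCommGroup H] [InnerProductSpace ℂ H] [CompleteSpace H]
        (M : VonNeumannAlgebra H) (A : StarSubalgebra ℂ (H →L[ℂ] H)),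
        IsMASA M A → IsSingular M A → SOPavableAll M A ε r) ∧
    (∃ C : ℝ, ∀ ε : ℝ, 0 < ε → ε < 1 → ∃ r : ℕ, (r : ℝ) ≤ C / ε ^ 2 ∧
      ∀ (H : Type u) [NormedAddCommGroup H] [InnerProductSpace ℂ H] [CompleteSpace H]
        (M : VonNeumannAlgebra H) (A : StarSubalgebra ℂ (H →L[ℂ] H)) (ι : Type u) (ξ : ι → H),
        IsMASA M A → IsFaithfulSemifiniteTrace M ξ → SOPavableAll M A ε r) ∧
    (∀ (H : Type u) [NormedAddCommGroup H] [InnerProductSpace ℂ H] [CompleteSpace H]
        (M : VonNeumannAlgebra H) (ξ : ℕ → H), IsFaithfulNormalTracialState M ξ →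
        ∃ (ι : Type u) (η : ι → H), IsFaithfulSemifiniteTrace M η) ∧
    (∀ (H : Type u) [NormedAddCommGroup H] [InnerProductSpace ℂ H] [CompleteSpace H],
        ∃ M : VonNeumannAlgebra H, (∀ x : H →L[ℂ] H, x ∈ M) ∧
          ∃ (ι : Type u) (η : ι → H), IsFaithfulSemifiniteTrace M η) ∧
    (∀ (H : Type u) [NormedAddCommGroup H] [InnerProductSpace ℂ H] [CompleteSpace H]
        (M : VonNeumannAlgebra H) (A : StarSubalgebra ℂ (H →L[ℂ] H)),
        IsMASA M A → NoCentralCase M A → ∀ ε : ℝ, 0 < ε → SOPavableAll M A ε ⌈2 / ε⌉₊) ∧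
    (∀ (ε : ℝ) (r₁ : ℕ), 0 < ε → 0 < r₁ →
      (∀ (K : Type u) [NormedAddCommGroup K] [InnerProductSpace ℂ K] [CompleteSpace K]
        (M : VonNeumannAlgebra K) (A : StarSubalgebra ℂ (K →L[ℂ] K)),
        IsMASA M A → FaithfulCentralCase M A → SOPavableAll M A ε r₁) →
      ∀ (H : Type u) [NormedAddCommGroup H] [InnerProductSpace ℂ H] [CompleteSpace H]
        (M : VonNeumannAlgebra H) (A : StarSubalgebra ℂ (H →L[ℂ] H)),
        IsMASA M A → SOPavableAll M A ε (r₁ + ⌈2 / ε⌉₊)) ∧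
    (∃ C : ℝ, ∀ ε : ℝ, 0 < ε → ε < 1 → ∃ r : ℕ, (r : ℝ) ≤ C / ε ^ 2 ∧
      ∀ (H : Type u) [NormedAddCommGroup H] [InnerProductSpace ℂ H] [CompleteSpace H]
        (M : VonNeumannAlgebra H) (A : StarSubalgebra ℂ (H →L[ℂ] H)) (ι : Type u) (ξ : ι → H),
        IsMASA M A → IsCentralVectorFamily M A ξ → IsSemifinitelyApproximated M A ξ →
        SOPavableAll M A ε r) := by
  refine ⟨Sing.singular_paving Sing.walkPaving, ?_, fun _ _ _ _ _ _ hξ => ⟨_, _, Semi.tracial_isSemifinite hξ⟩,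
    fun H _ _ _ => ⟨Semi.fullVN H, Semi.mem_fullVN,
      Semi.bounded_operators_isSemifinite _ Semi.mem_fullVN⟩,
    fun _ _ _ _ _ _ hA hno _ hε _ hx hxs =>
      Gen.paving_of_noCentralNormal hA (Gen.noCentral_of_fun hA.1 hno) hε (two_le_mul_ceil hε)
        hx hxs,
    fun _ _ hε hr hpave _ _ _ _ _ _ hA _ hx hxs =>
      Gen.paving_of_faithful_case hε hr (two_le_mul_ceil hε)
        (fun K _ _ _ M A hA' hf => hpave K M A hA' (Gen.faithful_to_fun hA'.1 hf)) hA hx hxs, ?_⟩
  · exact Sharp.semifinite_paving_sharp Sharp.sharpCore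
  · obtain ⟨C, hC⟩ := Sharp.semifinite_paving_sharp Sharp.sharpCore.{u}
    refine ⟨C * 4 + 1, fun ε hε hε1 => ?_⟩
    obtain ⟨r, hr, hpave⟩ := hC (ε / 2) (half_pos hε) (by linarith)
    refine ⟨r + 1, ?_, fun H _ _ _ M A ι ξ hA hξ happ x hx hxs =>
      Gen.paving_of_approximated hε r.succ_pos (fun N κ ζ hN hζ y hy hys =>
        Semi.sopavable_succ (hpave H N A κ ζ hN hζ y hy hys)) hA hξ happ hx hxs⟩
    have hk : 0 < ε ^ 2 := pow_pos hε 2
    have h1 : (r : ℝ) ≤ C * 4 / ε ^ 2 := by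
      refine hr.trans_eq ?_
      rw [div_pow, div_div_eq_mul_div]
      norm_num
    have h2 : (1 : ℝ) ≤ 1 / ε ^ 2 := by
      rw [le_div_iff₀ hk, one_mul]
      exact pow_le_one₀ hε.le hε1.le
    push_cast
    rw [add_div]
    linarith

end Vale.Agent.Results.P078.General
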